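import Mathlib
import Vale.Agent.Lib.P052.lead.Data
import Vale.Agent.Lib.P052.helper87.SData

/-!
# P052: kernel-friendly packed arithmetic for the matrix identity

All functions in this file are written with primitive recursors and primitive arithmetic
on natural numbers, so that the kernel evaluates them quickly.  Their meaning is proved in
`Packed.lean`.
-/

namespace Vale.Agent.Lib.P052.helper87

open Vale.Agent.Lib.P052

/-- `spreadAux n r pw acc = acc + ∑ v < n, (r / 2 ^ v % 2) * (pw * 65536 ^ v)`. -/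
def spreadAux (n : ℕ) : ℕ → ℕ → ℕ → ℕ :=
  Nat.rec (fun _ _ acc => acc)
    (fun _ ih r pw acc =>
      ih (Nat.div r 2) (Nat.mul pw 65536) (Nat.add acc (Nat.mul (Nat.mod r 2) pw))) n

/-- The spread of a bitmask: bit `v` (for `v < 416`) becomes the digit `v` in base `65536`. -/
def spread (r : ℕ) : ℕ := spreadAux 416 r 1 0

/-- The number whose `416` digits in base `65536` are all equal to `1`. -/
def ones : ℕ := (65536 ^ 416 - 1) / 65535

/-- `sumZip c l₁ l₂ acc = acc + ∑ j, c (l₁ j) * l₂ j`. -/
def sumZip (c : ℕ → ℕ) (l₁ : List ℕ) : List ℕ → ℕ → ℕ :=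
  List.rec (fun _ acc => acc)
    (fun r _ ih l₂ acc =>
      List.rec acc (fun s t _ => ih t (Nat.add acc (Nat.mul (c r) s))) l₂) l₁

/-- `allBelow f n` holds when `f k` holds for all `k < n`. -/
def allBelow (f : ℕ → Bool) (n : ℕ) : Bool :=
  Nat.rec true (fun k ih => and (f k) ih) n

/-- `allFrom f a n` holds when `f (a + k)` holds for all `k < n`. -/
def allFrom (f : ℕ → Bool) (a n : ℕ) : Bool :=
  Nat.rec true (fun k ih => and (f (Nat.add a k)) ih) n

/-- Packed form of row `u` of the identity `Aᵀ A = 16 A + 80 I + 20 J`. -/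
def rowCheck (u : ℕ) : Bool :=
  Nat.beq (sumZip (fun r => Nat.mod (Nat.div r (Nat.pow 2 u)) 2) adjRows srows 0)
    (Nat.add (Nat.add (Nat.mul 16 (srows.getD u 0)) (Nat.mul 80 (Nat.pow 65536 u)))
      (Nat.mul 20 ones))

/-- `1 + w1`: `1` on the 320 points, `2` on the first cluster, `0` on the second, `1` on the
third. -/
def wp1 (j : ℕ) : ℕ := if j < 320 then 1 else if j < 352 then 2 else if j < 384 then 0 else 1

/-- `1 + w2`: `1` below `352`, `2` on the second cluster, `0` on the third. -/
def wp2 (j : ℕ) : ℕ := if j < 352 then 1 else if j < 384 then 2 else 0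

/-- `packW c = ∑ v < 416, c v * 65536 ^ v`, computed by a loop. -/
def packW (c : ℕ → ℕ) : ℕ :=
  Nat.rec 0 (fun v ih => Nat.add ih (Nat.mul (c v) (Nat.pow 65536 v))) 416

/-- Packed form of the eigenvector identity for the weight `c`. -/
def combCheck (c : ℕ → ℕ) : Bool :=
  Nat.beq (sumZip c (List.range 416) srows 0) (Nat.add (Nat.mul 80 ones) (Nat.mul 20 (packW c)))

/-- The diagonal of the adjacency matrix vanishes. -/
def diagCheck (u : ℕ) : Bool := Nat.beq (Nat.mod (Nat.div (adjRows.getD u 0) (Nat.pow 2 u)) 2) 0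

end Vale.Agent.Lib.P052.helper87
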