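import Mathlib
import Vale.Agent.Lib.P052.helper87.Defs

namespace Vale.Agent.Lib.P052.helper87

open Vale.Agent.Lib.P052

theorem comb1_ok : combCheck wp1 = true := by decide +kernel

theorem comb2_ok : combCheck wp2 = true := by decide +kernel

theorem diag_ok : allBelow diagCheck 416 = true := by decide +kernel

theorem adjRows_length : adjRows.length = 416 := by decide +kernel

theorem srows_length : srows.length = 416 := by decide +kernel

theorem spread_zero : spread 0 = 0 := by decide +kernel

theorem sum_w1 : ∑ j ∈ Finset.range 416, w1 j = 0 := by decide +kernel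

theorem sum_w2 : ∑ j ∈ Finset.range 416, w2 j = 0 := by decide +kernel

theorem sum_w1_w1 : ∑ j ∈ Finset.range 416, w1 j * w1 j = 64 := by decide +kernel

theorem sum_w1_w2 : ∑ j ∈ Finset.range 416, w1 j * w2 j = -32 := by decide +kernel

theorem sum_w2_w2 : ∑ j ∈ Finset.range 416, w2 j * w2 j = 64 := by decide +kernel

end Vale.Agent.Lib.P052.helper87
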