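import Mathlib
import Vale.Agent.Lib.P052.helper87.Defs

/-!
# P052: meaning of the packed arithmetic of `Defs.lean`
-/

namespace Vale.Agent.Lib.P052.helper87

open Vale.Agent.Lib.P052 Finset

/-- Uniqueness of the digits in base `B` of a sum `∑ f v * B ^ v`. -/
theorem digits_unique (B : ℕ) : ∀ (n : ℕ) (f g : ℕ → ℕ), (∀ v < n, f v < B) → (∀ v < n, g v < B) →
    ∑ v ∈ range n, f v * B ^ v = ∑ v ∈ range n, g v * B ^ v → ∀ v < n, f v = g v := by
  intro n
  induction n with
  | zero => intro f g _ _ _ v hv; omega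
  | succ n ih =>
    intro f g hf hg h v hv
    have hB : 0 < B := lt_of_le_of_lt (Nat.zero_le _) (hf 0 (Nat.succ_pos n))
    rw [Finset.sum_range_succ', Finset.sum_range_succ'] at h
    have e1 : ∀ (k : ℕ → ℕ), ∑ i ∈ range n, k (i + 1) * B ^ (i + 1) =
        B * ∑ i ∈ range n, k (i + 1) * B ^ i := by
      intro k
      rw [Finset.mul_sum]
      apply Finset.sum_congr rfl
      intro i _
      ring
    rw [e1 f, e1 g] at h
    simp only [pow_zero, mul_one] at h
    have h0 : f 0 = g 0 := by
      have h2 := congrArg (fun x => x % B) h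
      simp only [Nat.mul_add_mod] at h2
      rwa [Nat.mod_eq_of_lt (hf 0 (Nat.succ_pos n)), Nat.mod_eq_of_lt (hg 0 (Nat.succ_pos n))] at h2
    have h1 : ∑ i ∈ range n, f (i + 1) * B ^ i = ∑ i ∈ range n, g (i + 1) * B ^ i := by
      rw [h0] at h
      exact Nat.eq_of_mul_eq_mul_left hB (Nat.add_right_cancel h)
    rcases v with _ | v
    · exact h0
    · exact ih (fun i => f (i + 1)) (fun i => g (i + 1)) (fun i hi => hf (i + 1) (by omega))
        (fun i hi => hg (i + 1) (by omega)) h1 v (by omega)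

theorem spreadAux_zero (r pw acc : ℕ) : spreadAux 0 r pw acc = acc := rfl

theorem spreadAux_succ (n r pw acc : ℕ) :
    spreadAux (n + 1) r pw acc = spreadAux n (r / 2) (pw * 65536) (acc + r % 2 * pw) := rfl

theorem spreadAux_eq : ∀ (n r pw acc : ℕ),
    spreadAux n r pw acc = acc + ∑ v ∈ range n, (r / 2 ^ v % 2) * (pw * 65536 ^ v) := by
  intro n
  induction n with
  | zero => intro r pw acc; simp [spreadAux_zero]
  | succ n ih =>
    intro r pw acc
    rw [spreadAux_succ, ih, Finset.sum_range_succ']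
    simp only [pow_zero, Nat.div_one, mul_one]
    have e : ∀ v, r / 2 / 2 ^ v % 2 * (pw * 65536 * 65536 ^ v) =
        r / 2 ^ (v + 1) % 2 * (pw * 65536 ^ (v + 1)) := by
      intro v
      rw [Nat.div_div_eq_div_mul, pow_succ' 2 v, pow_succ' 65536 v, mul_assoc]
    simp only [e]
    ring

theorem spread_eq (r : ℕ) : spread r = ∑ v ∈ range 416, (r / 2 ^ v % 2) * 65536 ^ v := by
  unfold spread
  rw [spreadAux_eq]
  simp

theorem sumZip_nil (c : ℕ → ℕ) (l₂ : List ℕ) (acc : ℕ) : sumZip c [] l₂ acc = acc := rfl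

theorem sumZip_cons_cons (c : ℕ → ℕ) (r : ℕ) (l₁ : List ℕ) (s : ℕ) (t : List ℕ) (acc : ℕ) :
    sumZip c (r :: l₁) (s :: t) acc = sumZip c l₁ t (acc + c r * s) := rfl

theorem sumZip_eq (c : ℕ → ℕ) : ∀ (l₁ l₂ : List ℕ) (acc : ℕ), l₁.length = l₂.length →
    sumZip c l₁ l₂ acc = acc + ∑ j ∈ range l₁.length, c (l₁.getD j 0) * l₂.getD j 0 := by
  intro l₁
  induction l₁ with
  | nil => intro l₂ acc _; simp [sumZip_nil]
  | cons r l₁ ih =>
    intro l₂ acc h
    cases l₂ with
    | nil => simp at h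
    | cons s t =>
      rw [sumZip_cons_cons, ih t _ (by simpa using h), List.length_cons, Finset.sum_range_succ']
      simp only [List.getD_cons_succ, List.getD_cons_zero]
      ring

theorem allBelow_succ (f : ℕ → Bool) (n : ℕ) : allBelow f (n + 1) = (f n && allBelow f n) := rfl

theorem allBelow_spec (f : ℕ → Bool) : ∀ n, allBelow f n = true → ∀ k < n, f k = true := by
  intro n
  induction n with
  | zero => intro _ k hk; omega
  | succ n ih =>
    intro h k hk
    rw [allBelow_succ, Bool.and_eq_true] at h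
    rcases Nat.lt_succ_iff_lt_or_eq.mp hk with hlt | rfl
    · exact ih h.2 k hlt
    · exact h.1

theorem allFrom_succ (f : ℕ → Bool) (a n : ℕ) :
    allFrom f a (n + 1) = (f (a + n) && allFrom f a n) := rfl

theorem allFrom_spec (f : ℕ → Bool) (a : ℕ) :
    ∀ n, allFrom f a n = true → ∀ k < n, f (a + k) = true := by
  intro n
  induction n with
  | zero => intro _ k hk; omega
  | succ n ih =>
    intro h k hk
    rw [allFrom_succ, Bool.and_eq_true] at h
    rcases Nat.lt_succ_iff_lt_or_eq.mp hk with hlt | rfl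
    · exact ih h.2 k hlt
    · exact h.1

theorem packW_eq (c : ℕ → ℕ) : packW c = ∑ v ∈ range 416, c v * 65536 ^ v := by
  have key : ∀ n : ℕ, (Nat.rec 0 (fun v ih => Nat.add ih (Nat.mul (c v) (Nat.pow 65536 v))) n : ℕ) =
      ∑ v ∈ range n, c v * 65536 ^ v := by
    intro n
    induction n with
    | zero => rfl
    | succ n ih =>
      rw [Finset.sum_range_succ, ← ih]
      rfl
  exact key 416

theorem ones_eq : ones = ∑ v ∈ range 416, 65536 ^ v := by
  unfold ones
  rw [Nat.geomSum_eq (by norm_num)]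

theorem getD_range (n j : ℕ) (h : j < n) : (List.range n).getD j 0 = j := by
  rw [List.getD_eq_getElem _ _ (by simpa using h)]
  simp

end Vale.Agent.Lib.P052.helper87
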