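import Mathlib
import Vale.Agent.Lib.P052.helper87.Defs
import Vale.Agent.Lib.P052.helper87.Packed

namespace Vale.Agent.Lib.P052.helper87

open Vale.Agent.Lib.P052

/-! Kernel checks: all rows of the packed identity `Aᵀ A = 16 A + 80 I + 20 J`, in eight blocks
of `52` rows. -/

theorem rows_ok_0 : allFrom rowCheck 0 52 = true := by decide +kernel

theorem rows_ok_1 : allFrom rowCheck 52 52 = true := by decide +kernel

theorem rows_ok_2 : allFrom rowCheck 104 52 = true := by decide +kernel

theorem rows_ok_3 : allFrom rowCheck 156 52 = true := by decide +kernel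

theorem rows_ok_4 : allFrom rowCheck 208 52 = true := by decide +kernel

theorem rows_ok_5 : allFrom rowCheck 260 52 = true := by decide +kernel

theorem rows_ok_6 : allFrom rowCheck 312 52 = true := by decide +kernel

theorem rows_ok_7 : allFrom rowCheck 364 52 = true := by decide +kernel

theorem rows_ok (u : ℕ) (hu : u < 416) : rowCheck u = true := by
  have key : ∀ a : ℕ, allFrom rowCheck a 52 = true → a ≤ u → u < a + 52 → rowCheck u = true := by
    intro a h h1 h2
    have h3 := allFrom_spec rowCheck a 52 h (u - a) (by omega)
    rwa [show a + (u - a) = u by omega] at h3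
  by_cases c1 : u < 52
  · exact key 0 rows_ok_0 (by omega) (by omega)
  by_cases c2 : u < 104
  · exact key 52 rows_ok_1 (by omega) (by omega)
  by_cases c3 : u < 156
  · exact key 104 rows_ok_2 (by omega) (by omega)
  by_cases c4 : u < 208
  · exact key 156 rows_ok_3 (by omega) (by omega)
  by_cases c5 : u < 260
  · exact key 208 rows_ok_4 (by omega) (by omega)
  by_cases c6 : u < 312
  · exact key 260 rows_ok_5 (by omega) (by omega)
  by_cases c7 : u < 364
  · exact key 312 rows_ok_6 (by omega) (by omega)
  · exact key 364 rows_ok_7 (by omega) (by omega)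

end Vale.Agent.Lib.P052.helper87
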