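import Mathlib
import Vale.Agent.Lib.P052.helper87.Defs

namespace Vale.Agent.Lib.P052.helper87

open Vale.Agent.Lib.P052

/-- Kernel check: the spread rows are the spreads of the neighbour bitmasks. -/
theorem spread_rows : adjRows.map spread = srows := by decide +kernel

end Vale.Agent.Lib.P052.helper87
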