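import Mathlib
import Vale.Agent.Lib.P052.lead.Data
import Vale.Agent.Lib.P052.helper87.Defs
import Vale.Agent.Lib.P052.helper87.Packed
import Vale.Agent.Lib.P052.helper87.CheckSpread
import Vale.Agent.Lib.P052.helper87.CheckRows
import Vale.Agent.Lib.P052.helper87.CheckMisc

/-!
# P052: the matrix identity `Nmatᵀ * Nmat = 96 • Nmat`

The kernel checks of `CheckSpread`, `CheckRows`, `CheckMisc` are packed identities between
large natural numbers; here they are unpacked digit by digit (base `65536`) into the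
strongly-regular-graph identities, from which the matrix identity follows by algebra.
-/

namespace Vale.Agent.Lib.P052.helper87

open Vale.Agent.Lib.P052 Finset

attribute [local irreducible] ones

/-- Entry of the adjacency matrix, as a natural number. -/
def a (u v : ℕ) : ℕ := adjRows.getD u 0 / 2 ^ v % 2

/-- Spread row `u`. -/
def S (u : ℕ) : ℕ := srows.getD u 0

theorem a_le_one (u v : ℕ) : a u v ≤ 1 := by
  unfold a
  omega

theorem a_mul_self (u v : ℕ) : a u v * a u v = a u v := by
  have h := a_le_one u v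
  rcases Nat.le_one_iff_eq_zero_or_eq_one.mp h with h0 | h1
  · rw [h0]
  · rw [h1]

theorem S_eq (u : ℕ) : S u = ∑ v ∈ range 416, a u v * 65536 ^ v := by
  have h := List.getD_map (l := adjRows) (n := u) (d := 0) spread
  rw [spread_zero, spread_rows, spread_eq] at h
  exact h

/-- Digit extraction from a packed combination of the spread rows. -/
theorem packed_comb (c t : ℕ → ℕ) (K : ℕ) (hK : 416 * K < 65536) (hc : ∀ j, c j ≤ K)
    (ht : ∀ v < 416, t v < 65536)
    (h : ∑ j ∈ range 416, c j * S j = ∑ v ∈ range 416, t v * 65536 ^ v) :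
    ∀ v < 416, ∑ j ∈ range 416, c j * a j v = t v := by
  have h' : ∑ v ∈ range 416, (∑ j ∈ range 416, c j * a j v) * 65536 ^ v =
      ∑ v ∈ range 416, t v * 65536 ^ v := by
    rw [← h]
    simp only [S_eq, Finset.mul_sum, Finset.sum_mul]
    rw [Finset.sum_comm]
    apply Finset.sum_congr rfl
    intro j _
    apply Finset.sum_congr rfl
    intro v _
    ring
  refine digits_unique 65536 416 _ t ?_ ht h'
  intro v _
  calc ∑ j ∈ range 416, c j * a j v ≤ ∑ j ∈ range 416, K := by
        apply Finset.sum_le_sum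
        intro j _
        have h1 := a_le_one j v
        have h2 := hc j
        calc c j * a j v ≤ K * 1 := Nat.mul_le_mul h2 h1
          _ = K := Nat.mul_one K
    _ = 416 * K := by simp
    _ < 65536 := hK

theorem row_identity (u : ℕ) (hu : u < 416) :
    ∑ j ∈ range 416, a j u * S j = 16 * S u + 80 * 65536 ^ u + 20 * ones := by
  have h := rows_ok u hu
  unfold rowCheck at h
  have h2 := Nat.eq_of_beq_eq_true h
  rw [sumZip_eq _ _ _ _ (by rw [adjRows_length, srows_length]), adjRows_length, zero_add] at h2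
  exact h2

/-- The strongly regular graph identity `Aᵀ A = 16 A + 80 I + 20 J`, entrywise. -/
theorem star (u v : ℕ) (hu : u < 416) (hv : v < 416) :
    ∑ j ∈ range 416, a j u * a j v = 16 * a u v + (if v = u then 80 else 0) + 20 := by
  have e : ∑ v ∈ range 416, (16 * a u v + (if v = u then 80 else 0) + 20) * 65536 ^ v =
      16 * S u + 80 * 65536 ^ u + 20 * ones := by
    rw [S_eq, ones_eq, Finset.mul_sum, Finset.mul_sum]
    have e2 : 80 * 65536 ^ u = ∑ v ∈ range 416, (if v = u then 80 else 0) * 65536 ^ v := by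
      rw [Finset.sum_eq_single u]
      · simp
      · intro b _ hb
        simp [hb]
      · intro h
        exact absurd (Finset.mem_range.mpr hu) h
    rw [e2, ← Finset.sum_add_distrib, ← Finset.sum_add_distrib]
    apply Finset.sum_congr rfl
    intro v _
    ring
  refine packed_comb (fun j => a j u) (fun v => 16 * a u v + (if v = u then 80 else 0) + 20) 1
    (by norm_num) (fun j => a_le_one j u) ?_ ?_ v hv
  · intro v _
    have h1 := a_le_one u v
    split_ifs <;> omega
  · rw [e]
    exact row_identity u hu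

theorem a_diag (u : ℕ) (hu : u < 416) : a u u = 0 := by
  have h := allBelow_spec diagCheck 416 diag_ok u hu
  unfold diagCheck at h
  exact Nat.eq_of_beq_eq_true h

theorem a_symm (u v : ℕ) (hu : u < 416) (hv : v < 416) : a u v = a v u := by
  have h1 := star u v hu hv
  have h2 := star v u hv hu
  have h3 : ∑ j ∈ range 416, a j u * a j v = ∑ j ∈ range 416, a j v * a j u :=
    Finset.sum_congr rfl (fun j _ => Nat.mul_comm _ _)
  rw [h1, h2] at h3
  by_cases h : u = v
  · rw [h]
  · have h' : ¬ v = u := fun e => h e.symm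
    simp only [h, h', if_false] at h3
    omega

theorem col_sum (u : ℕ) (hu : u < 416) : ∑ j ∈ range 416, a j u = 100 := by
  have h1 := star u u hu hu
  rw [a_diag u hu] at h1
  simp only [if_true, a_mul_self] at h1
  exact h1

theorem comb_identity (c : ℕ → ℕ) (h : combCheck c = true) :
    ∑ j ∈ range 416, c j * S j = ∑ v ∈ range 416, (80 + 20 * c v) * 65536 ^ v := by
  unfold combCheck at h
  have h2 := Nat.eq_of_beq_eq_true h
  rw [sumZip_eq _ _ _ _ (by rw [List.length_range, srows_length]), List.length_range, zero_add]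
    at h2
  have h3 : ∑ j ∈ range 416, c j * S j = 80 * ones + 20 * packW c := by
    refine Eq.trans ?_ h2
    apply Finset.sum_congr rfl
    intro j hj
    rw [getD_range 416 j (Finset.mem_range.mp hj)]
    rfl
  rw [h3, ones_eq, packW_eq, Finset.mul_sum, Finset.mul_sum, ← Finset.sum_add_distrib]
  apply Finset.sum_congr rfl
  intro v _
  ring

theorem wp1_le (j : ℕ) : wp1 j ≤ 2 := by
  unfold wp1
  split_ifs <;> omega

theorem wp2_le (j : ℕ) : wp2 j ≤ 2 := by
  unfold wp2
  split_ifs <;> omega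

theorem comb1 (v : ℕ) (hv : v < 416) : ∑ j ∈ range 416, wp1 j * a j v = 80 + 20 * wp1 v := by
  refine packed_comb wp1 (fun v => 80 + 20 * wp1 v) 2 (by norm_num) wp1_le ?_
    (comb_identity wp1 comb1_ok) v hv
  intro v _
  have := wp1_le v
  omega

theorem comb2 (v : ℕ) (hv : v < 416) : ∑ j ∈ range 416, wp2 j * a j v = 80 + 20 * wp2 v := by
  refine packed_comb wp2 (fun v => 80 + 20 * wp2 v) 2 (by norm_num) wp2_le ?_
    (comb_identity wp2 comb2_ok) v hv
  intro v _
  have := wp2_le v
  omega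

theorem w1_eq (j : ℕ) : w1 j = (wp1 j : ℤ) - 1 := by
  unfold w1 wp1
  split_ifs <;> norm_num

theorem w2_eq (j : ℕ) : w2 j = (wp2 j : ℤ) - 1 := by
  unfold w2 wp2
  split_ifs <;> norm_num

theorem adjBit_eq (u v : ℕ) : adjBit u v = decide (a u v = 1) := by
  unfold adjBit a
  exact Nat.testBit_eq_decide_div_mod_eq

theorem gram_eq (j u : ℕ) (hu : u < 416) :
    gram j u = 4 * (a j u : ℤ) + 16 * (if u = j then 1 else 0) - 1 := by
  unfold gram
  by_cases h : j = u
  · subst h
    simp [a_diag j hu]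
  · have h' : ¬ u = j := fun e => h e.symm
    rw [adjBit_eq]
    have h1 := a_le_one j u
    rcases Nat.le_one_iff_eq_zero_or_eq_one.mp h1 with h0 | h1
    · simp [h, h', h0]
    · simp [h, h', h1]

theorem sum_expand (n : ℕ) (α β d e : ℕ → ℤ) :
    ∑ j ∈ range n, (4 * α j + 16 * d j - 1) * (4 * β j + 16 * e j - 1) =
      16 * ∑ j ∈ range n, α j * β j + 64 * ∑ j ∈ range n, α j * e j - 4 * ∑ j ∈ range n, α j
      + 64 * ∑ j ∈ range n, d j * β j + 256 * ∑ j ∈ range n, d j * e j
      - 16 * ∑ j ∈ range n, d j - 4 * ∑ j ∈ range n, β j - 16 * ∑ j ∈ range n, e j + n := by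
  have hn : (n : ℤ) = ∑ j ∈ range n, (1 : ℤ) := by simp
  rw [hn]
  simp only [Finset.mul_sum, ← Finset.sum_add_distrib, ← Finset.sum_sub_distrib]
  apply Finset.sum_congr rfl
  intro j _
  ring

theorem gram_sq (u v : ℕ) (hu : u < 416) (hv : v < 416) :
    ∑ j ∈ range 416, gram j u * gram j v = 96 * gram u v := by
  have e : ∀ j ∈ range 416, gram j u * gram j v =
      (4 * ((a j u : ℕ) : ℤ) + 16 * (if u = j then 1 else 0) - 1) *
        (4 * ((a j v : ℕ) : ℤ) + 16 * (if v = j then 1 else 0) - 1) := by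
    intro j _
    rw [gram_eq j u hu, gram_eq j v hv]
  rw [Finset.sum_congr rfl e, sum_expand]
  have s1 : ∑ j ∈ range 416, ((a j u : ℕ) : ℤ) * ((a j v : ℕ) : ℤ) =
      ((16 * a u v + (if v = u then 80 else 0) + 20 : ℕ) : ℤ) := by
    rw [← star u v hu hv]
    push_cast
    rfl
  have s2 : ∑ j ∈ range 416, ((a j u : ℕ) : ℤ) * (if v = j then (1 : ℤ) else 0) = (a v u : ℤ) := by
    rw [Finset.sum_mul_boole]
    simp [hv]
  have s3 : ∑ j ∈ range 416, ((a j u : ℕ) : ℤ) = 100 := by
    rw [← Nat.cast_sum, col_sum u hu]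
    norm_num
  have s4 : ∑ j ∈ range 416, (if u = j then (1 : ℤ) else 0) * ((a j v : ℕ) : ℤ) = (a u v : ℤ) := by
    rw [Finset.sum_boole_mul]
    simp [hu]
  have s5 : ∑ j ∈ range 416, (if u = j then (1 : ℤ) else 0) * (if v = j then (1 : ℤ) else 0) =
      if v = u then 1 else 0 := by
    rw [Finset.sum_boole_mul]
    simp [hu]
  have s6 : ∑ j ∈ range 416, (if u = j then (1 : ℤ) else 0) = 1 := by
    rw [Finset.sum_ite_eq]
    simp [hu]
  have s7 : ∑ j ∈ range 416, ((a j v : ℕ) : ℤ) = 100 := by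
    rw [← Nat.cast_sum, col_sum v hv]
    norm_num
  have s8 : ∑ j ∈ range 416, (if v = j then (1 : ℤ) else 0) = 1 := by
    rw [Finset.sum_ite_eq]
    simp [hv]
  rw [s1, s2, s3, s4, s5, s6, s7, s8, gram_eq u v hv, a_symm v u hv hu]
  push_cast
  split_ifs <;> ring

theorem gram_w (w : ℕ → ℤ) (wp : ℕ → ℕ) (hw : ∀ j, w j = (wp j : ℤ) - 1)
    (hcomb : ∀ v < 416, ∑ j ∈ range 416, wp j * a j v = 80 + 20 * wp v)
    (hsum : ∑ j ∈ range 416, w j = 0) (u : ℕ) (hu : u < 416) :
    ∑ j ∈ range 416, gram j u * w j = 96 * w u := by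
  have e : ∀ j ∈ range 416, gram j u * w j =
      4 * (((wp j * a j u : ℕ) : ℤ)) - 4 * ((a j u : ℕ) : ℤ) + 16 * ((if u = j then (1 : ℤ) else 0) * w j)
        - w j := by
    intro j _
    rw [gram_eq j u hu, hw j]
    push_cast
    ring
  rw [Finset.sum_congr rfl e]
  simp only [Finset.sum_add_distrib, Finset.sum_sub_distrib, ← Finset.mul_sum]
  rw [← Nat.cast_sum, ← Nat.cast_sum, hcomb u hu, col_sum u hu, hsum, Finset.sum_boole_mul]
  simp only [Finset.mem_range, hu, if_true]
  rw [hw u]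
  push_cast
  ring

theorem gram_w1 (u : ℕ) (hu : u < 416) : ∑ j ∈ range 416, gram j u * w1 j = 96 * w1 u :=
  gram_w w1 wp1 w1_eq comb1 sum_w1 u hu

theorem gram_w2 (u : ℕ) (hu : u < 416) : ∑ j ∈ range 416, gram j u * w2 j = 96 * w2 u :=
  gram_w w2 wp2 w2_eq comb2 sum_w2 u hu

theorem main_entry (u v : ℕ) (hu : u < 416) (hv : v < 416) :
    ∑ j ∈ range 416,
        (gram j u - 2 * w1 j * w1 u - w1 j * w2 u - w2 j * w1 u - 2 * w2 j * w2 u) *
        (gram j v - 2 * w1 j * w1 v - w1 j * w2 v - w2 j * w1 v - 2 * w2 j * w2 v) =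
      96 * (gram u v - 2 * w1 u * w1 v - w1 u * w2 v - w2 u * w1 v - 2 * w2 u * w2 v) := by
  have e : ∀ j ∈ range 416,
      (gram j u - 2 * w1 j * w1 u - w1 j * w2 u - w2 j * w1 u - 2 * w2 j * w2 u) *
        (gram j v - 2 * w1 j * w1 v - w1 j * w2 v - w2 j * w1 v - 2 * w2 j * w2 v) =
      gram j u * gram j v - (2 * w1 v + w2 v) * (gram j u * w1 j)
        - (w1 v + 2 * w2 v) * (gram j u * w2 j)
        - (2 * w1 u + w2 u) * (gram j v * w1 j) - (w1 u + 2 * w2 u) * (gram j v * w2 j)
        + (2 * w1 u + w2 u) * (2 * w1 v + w2 v) * (w1 j * w1 j)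
        + ((2 * w1 u + w2 u) * (w1 v + 2 * w2 v) + (w1 u + 2 * w2 u) * (2 * w1 v + w2 v))
            * (w1 j * w2 j)
        + (w1 u + 2 * w2 u) * (w1 v + 2 * w2 v) * (w2 j * w2 j) := by
    intro j _
    ring
  rw [Finset.sum_congr rfl e]
  simp only [Finset.sum_add_distrib, Finset.sum_sub_distrib, ← Finset.mul_sum]
  rw [gram_sq u v hu hv, gram_w1 u hu, gram_w2 u hu, gram_w1 v hv, gram_w2 v hv, sum_w1_w1,
    sum_w1_w2, sum_w2_w2]
  ring

/-- The matrix identity: `Nmat` is `96` times an orthogonal projection. -/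
theorem Nmat_sq : Nmat.transpose * Nmat = (96 : ℤ) • Nmat := by
  ext u v
  rw [Matrix.mul_apply, Matrix.smul_apply]
  simp only [Matrix.transpose_apply, Nmat, Matrix.of_apply, smul_eq_mul]
  rw [Fin.sum_univ_eq_sum_range (fun j : ℕ =>
    (gram j u.val - 2 * w1 j * w1 u.val - w1 j * w2 u.val - w2 j * w1 u.val
      - 2 * w2 j * w2 u.val) *
    (gram j v.val - 2 * w1 j * w1 v.val - w1 j * w2 v.val - w2 j * w1 v.val
      - 2 * w2 j * w2 v.val)) 416]
  exact main_entry u.val v.val u.isLt v.isLt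

end Vale.Agent.Lib.P052.helper87
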